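import Vale.Agent.P078.MathlibUsed

/-!
Definitions for the Popa-Vaes strong-operator paving problem.
-/

namespace Vale.Agent.P078.SO

variable {H : Type*} [NormedAddCommGroup H] [InnerProductSpace ℂ H] [CompleteSpace H]

/-- `A` is a maximal abelian self-adjoint subalgebra of the von Neumann algebra `M`: it is an
abelian subalgebra of `M` containing every element of `M` that commutes with it. -/
def IsMASA (A M : VonNeumannAlgebra H) : Prop :=
  (∀ x ∈ A, x ∈ M) ∧ (∀ x ∈ A, ∀ y ∈ A, x * y = y * x) ∧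
    ∀ x ∈ M, (∀ a ∈ A, a * x = x * a) → x ∈ A

/-- For a projection `z` in `A`: the operator `x` of the corner `z M z` is `(ε, r)` so-pavable
over `A z`, on the Hilbert space `z H`. For `z = 1` this is so-pavability over `A` in `M`. -/
def SOPavable (M A : VonNeumannAlgebra H) (z x : H →L[ℂ] H) (ε : ℝ) (r : ℕ) : Prop :=
  ∀ F : Finset H, (∀ ξ ∈ F, z ξ = ξ) → ∀ δ : ℝ, 0 < δ →
    ∃ (p : Fin r → (H →L[ℂ] H)) (a q : H →L[ℂ] H),
      (∀ i, p i ∈ A ∧ IsStarProjection (p i)) ∧ (∀ i j, i ≠ j → p i * p j = 0) ∧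
      ∑ i, p i = z ∧
      a ∈ A ∧ z * a = a ∧ IsSelfAdjoint a ∧ ‖a‖ ≤ ‖x‖ ∧
      q ∈ M ∧ z * q = q ∧ IsStarProjection q ∧
      (∀ ξ ∈ F, ‖ξ - q ξ‖ < δ) ∧
      ‖q * (∑ i, p i * x * p i - a) * q‖ ≤ ε * ‖x‖

/-- The so-paving number of the inclusion of `A z` in `z M z`: the least `r ≥ 1` such that every
self-adjoint `x` in `z M z` is `(ε, r)` so-pavable (`⊤` if there is none). -/
noncomputable def pavingNumber (M A : VonNeumannAlgebra H) (z : H →L[ℂ] H) (ε : ℝ) : ℕ∞ :=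
  ⨅ r ∈ {r : ℕ | 1 ≤ r ∧ ∀ x ∈ M, IsSelfAdjoint x → z * x * z = x → SOPavable M A z x ε r},
    (r : ℕ∞)

/-- `E`, restricted to the corner `z M z`, is a normal conditional expectation onto `A z`:
linear, with values in `A z`, the identity on `A z`, positive, `A`-bimodular, and preserving
suprema of upward directed sets. -/
structure IsNormalExpectation (M A : VonNeumannAlgebra H) (z : H →L[ℂ] H)
    (E : (H →L[ℂ] H) →ₗ[ℂ] (H →L[ℂ] H)) : Prop where
  mem : ∀ x ∈ M, z * x * z = x → E x ∈ A ∧ z * E x = E x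
  idem : ∀ a ∈ A, z * a = a → E a = a
  nonneg : ∀ x ∈ M, z * x * z = x → 0 ≤ x → 0 ≤ E x
  bimod : ∀ a ∈ A, ∀ b ∈ A, ∀ x ∈ M, z * x * z = x → E (a * x * b) = a * E x * b
  normal : ∀ D : Set (H →L[ℂ] H), D.Nonempty → DirectedOn (· ≤ ·) D →
    (∀ x ∈ D, x ∈ M ∧ z * x * z = x) → ∀ y, IsLUB D y → IsLUB (E '' D) (E y)

end Vale.Agent.P078.SO
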