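import Vale.Agent.P078.MathlibUsed

/-! Factors of type II one. -/

namespace Vale.Agent.P078.SO

variable {H : Type*} [NormedAddCommGroup H] [InnerProductSpace ℂ H] [CompleteSpace H]

/-- `M` is a factor: every element of `M` commuting with `M` is a scalar. -/
def IsFactor (M : VonNeumannAlgebra H) : Prop :=
  ∀ x ∈ M, (∀ y ∈ M, x * y = y * x) → ∃ c : ℂ, x = c • (1 : H →L[ℂ] H)

/-- `M` is infinite-dimensional: it has arbitrarily many mutually orthogonal nonzero
projections. -/
def IsInfiniteDimensional (M : VonNeumannAlgebra H) : Prop :=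
  ∀ n : ℕ, ∃ p : Fin n → (H →L[ℂ] H), (∀ i, p i ∈ M ∧ IsStarProjection (p i) ∧ p i ≠ 0) ∧
    ∀ i j, i ≠ j → p i * p j = 0

/-- The normal positive functional `x ↦ ∑ ⟪ξ n, x (ξ n)⟫` given by a square-summable sequence of
vectors; every normal positive functional on a von Neumann algebra has this form. -/
noncomputable def vecTrace (ξ : ℕ → H) (x : H →L[ℂ] H) : ℂ := ∑' n, inner ℂ (ξ n) (x (ξ n))

/-- `M` is a factor of type II one: an infinite-dimensional factor with a nonzero normal finite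
trace. -/
def IsTypeII1Factor (M : VonNeumannAlgebra H) : Prop :=
  IsFactor M ∧ IsInfiniteDimensional M ∧
    ∃ ξ : ℕ → H, Summable (fun n => ‖ξ n‖ ^ 2) ∧ (∃ n, ξ n ≠ 0) ∧
      ∀ x ∈ M, ∀ y ∈ M, vecTrace ξ (x * y) = vecTrace ξ (y * x)

end Vale.Agent.P078.SO
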