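import Vale.Agent.P078.Paving0

/-! The largest expected projection. -/

namespace Vale.Agent.P078.SO

variable {H : Type*} [NormedAddCommGroup H] [InnerProductSpace ℂ H] [CompleteSpace H]

/-- `z` is the largest projection of `A` such that `A z` is the range of a normal conditional
expectation of `z M z`. -/
def IsLargestExpected (M A : VonNeumannAlgebra H) (z : H →L[ℂ] H) : Prop :=
  (z ∈ A ∧ IsStarProjection z ∧ ∃ E, IsNormalExpectation M A z E) ∧
    ∀ p ∈ A, IsStarProjection p → (∃ E, IsNormalExpectation M A p E) → p ≤ z

/-- The so-paving number of the inclusion of `A` in `M`. -/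
noncomputable def nPave (M A : VonNeumannAlgebra H) (ε : ℝ) : ℕ∞ := pavingNumber M A 1 ε

end Vale.Agent.P078.SO
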