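import Vale.Agent.P078.Growth0

/-! Semifinite von Neumann algebras. -/

namespace Vale.Agent.P078.SO

open scoped ENNReal

universe u

variable {H : Type u} [NormedAddCommGroup H] [InnerProductSpace ℂ H] [CompleteSpace H]

/-- The value `∑ ‖x (η k)‖² = ∑ ⟪η k, (x* x) (η k)⟫` in `[0, ∞]`, at `x* x`, of the normal weight
given by the family of vectors `η`; every normal weight has this form. -/
noncomputable def wt {ι : Type*} (η : ι → H) (x : H →L[ℂ] H) : ℝ≥0∞ :=
  ∑' k, ENNReal.ofReal (‖x (η k)‖ ^ 2)

/-- For a projection `z` of `M`: the family of vectors `η` gives a faithful normal semifinite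
trace on `z M z`. -/
structure SemiTrace (M : VonNeumannAlgebra H) (z : H →L[ℂ] H) {ι : Type*} (η : ι → H) :
    Prop where
  tracial : ∀ x ∈ M, z * x * z = x → wt η x = wt η (star x)
  faithful : ∀ x ∈ M, z * x * z = x → (∀ k, x (η k) = 0) → x = 0
  semifinite : ∀ e ∈ M, IsStarProjection e → z * e = e → e ≠ 0 →
    ∃ f ∈ M, IsStarProjection f ∧ f ≠ 0 ∧ e * f = f ∧ wt η f ≠ ∞

/-- The corner `z M z` (all of `M` for `z = 1`) is a semifinite von Neumann algebra: it has a
faithful normal semifinite trace. -/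
def IsSemifinite (M : VonNeumannAlgebra H) (z : H →L[ℂ] H) : Prop :=
  ∃ (ι : Type u) (η : ι → H), SemiTrace M z η

end Vale.Agent.P078.SO
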