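import Mathlib.Algebra.GroupWithZero.Action.Pointwise.Finset
import Mathlib.Algebra.Order.Chebyshev
import Mathlib.Algebra.Ring.Action.Pointwise.Finset
import Mathlib.Algebra.Ring.IsFormallyReal
import Mathlib.Analysis.CStarAlgebra.CompletelyPositiveMap
import Mathlib.Analysis.CStarAlgebra.ContinuousFunctionalCalculus.Range
import Mathlib.Analysis.CStarAlgebra.GelfandNaimarkSegal
import Mathlib.Analysis.CStarAlgebra.Projection
import Mathlib.Analysis.CStarAlgebra.Unitary.Span
import Mathlib.Analysis.Complex.ExponentialBounds
import Mathlib.Analysis.Convex.KreinMilman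
import Mathlib.Analysis.Fourier.AddCircle
import Mathlib.Analysis.InnerProductSpace.StarOrder
import Mathlib.Analysis.InnerProductSpace.WeakOperatorTopology
import Mathlib.Analysis.Real.Pi.Bounds
import Mathlib.Analysis.SpecialFunctions.Complex.CircleAddChar
import Mathlib.Analysis.SpecialFunctions.Log.Base
import Mathlib.Analysis.VonNeumannAlgebra.Basic
import Mathlib.Combinatorics.SimpleGraph.AdjMatrix
import Mathlib.Data.Finset.DenselyOrdered
import Mathlib.Data.Finset.Functor
import Mathlib.Data.Finset.MulAntidiagonal
import Mathlib.LinearAlgebra.Lagrange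
import Mathlib.LinearAlgebra.Matrix.Gershgorin
import Mathlib.LinearAlgebra.Matrix.Swap
import Mathlib.Logic.Equiv.Bool
import Mathlib.NumberTheory.Dioph
import Mathlib.Order.CompletePartialOrder
import Mathlib.RingTheory.Flat.TorsionFree
import Mathlib.RingTheory.MvPolynomial.Symmetric.NewtonIdentities
import Mathlib.RingTheory.SimpleRing.Principal
import Mathlib.Tactic
import Mathlib.Topology.Order.LowerUpperTopology
import Mathlib.Topology.Separation.Profinite

/-! The part of Mathlib that the development of this folder uses. -/
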